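import Mathlib

/-!
# P096: a nearby projection, and a unitary near one that moves it
-/

namespace Vale.Agent.P096.Reduce

universe u

variable {H : Type u} [NormedAddCommGroup H] [InnerProductSpace ℂ H] [CompleteSpace H]

/-- A cut-off that is `0` near `0` and `1` near `1`. -/
noncomputable def cutFun (t : ℝ) : ℝ := max 0 (min 1 (2 * t - 1 / 2))

theorem continuous_cutFun : Continuous cutFun := by
  unfold cutFun
  fun_prop

theorem cutFun_spec {t δ : ℝ} (h : |t * t - t| ≤ δ) (hδ : δ ≤ 1 / 8) :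
    cutFun t * cutFun t = cutFun t ∧ |cutFun t - t| ≤ 2 * δ := by
  obtain ⟨h1, h2⟩ := abs_le.1 h
  rcases le_or_gt t (1 / 2) with ht | ht
  · have hu : t ≤ 2 * δ := by nlinarith
    have hl : -(2 * δ) ≤ t := by nlinarith
    have h0 : cutFun t = 0 := by
      unfold cutFun
      rw [max_eq_left]
      exact (min_le_right _ _).trans (by linarith)
    rw [h0]
    exact ⟨mul_zero _, by rw [zero_sub, abs_neg, abs_le]; exact ⟨hl, hu⟩⟩
  · have hu : t ≤ 1 + 2 * δ := by nlinarith
    have hl : 1 - 2 * δ ≤ t := by nlinarith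
    have h0 : cutFun t = 1 := by
      unfold cutFun
      rw [min_eq_left (by linarith), max_eq_right zero_le_one]
    rw [h0]
    exact ⟨mul_one _, by rw [abs_le]; constructor <;> linarith⟩

/-- Near a projection, a self-adjoint element of an algebra gives a projection of it. -/
theorem exists_proj_near (M : VonNeumannAlgebra H) {p a : H →L[ℂ] H} (hp : IsStarProjection p)
    (haM : a ∈ M) (ha : IsSelfAdjoint a) {ε : ℝ} (hε : ε ≤ 1 / 32) (hd : ‖a - p‖ ≤ ε) :
    ∃ q ∈ M, IsStarProjection q ∧ ‖q - p‖ ≤ 9 * ε := by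
  have hε0 : 0 ≤ ε := (norm_nonneg _).trans hd
  have hsq : ‖a * a - a‖ ≤ 4 * ε := by
    have h1 : a * a - a = (a - p) * (a - p) + (a - p) * p + p * (a - p) - (a - p) := by
      simp only [mul_sub, sub_mul, hp.isIdempotentElem.eq]
      abel
    rw [h1]
    calc ‖(a - p) * (a - p) + (a - p) * p + p * (a - p) - (a - p)‖
        ≤ ‖(a - p) * (a - p)‖ + ‖(a - p) * p‖ + ‖p * (a - p)‖ + ‖a - p‖ :=
          (norm_sub_le _ _).trans (add_le_add_left (norm_add₃_le ..) _)
      _ ≤ ε * ε + ε * 1 + 1 * ε + ε := by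
          gcongr <;> refine (norm_mul_le _ _).trans ?_
          · exact mul_le_mul hd hd (norm_nonneg _) hε0
          · exact mul_le_mul hd hp.norm_le (norm_nonneg _) hε0
          · exact mul_le_mul hp.norm_le hd (norm_nonneg _) zero_le_one
      _ ≤ 4 * ε := by nlinarith
  rcases subsingleton_or_nontrivial (H →L[ℂ] H) with hs | hs
  · exact ⟨p, Subsingleton.elim a p ▸ haM, hp, by rw [sub_self, norm_zero]; positivity⟩
  have hspec : ∀ t ∈ spectrum ℝ a, |t * t - t| ≤ 4 * ε := by
    intro t ht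
    have h1 : ‖cfc (fun s : ℝ => s * s - s) a‖ ≤ 4 * ε := by
      rw [cfc_sub (fun s : ℝ => s * s) (fun s => s) a, cfc_mul (fun s : ℝ => s) (fun s => s) a,
        cfc_id' ℝ a ha]
      exact hsq
    exact (norm_apply_le_norm_cfc (fun s : ℝ => s * s - s) a ht (by fun_prop) ha).trans h1
  refine ⟨cfc cutFun a, ?_, ⟨?_, cfc_predicate cutFun a⟩, ?_⟩
  · show cfc cutFun a ∈ (M : Set (H →L[ℂ] H))
    rw [← VonNeumannAlgebra.centralizer_centralizer M]
    intro y hy
    exact ((show Commute a y from hy a haM).cfc_real cutFun).eq.symm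
  · show cfc cutFun a * cfc cutFun a = cfc cutFun a
    rw [← cfc_mul cutFun cutFun a continuous_cutFun.continuousOn continuous_cutFun.continuousOn]
    exact cfc_congr fun t ht => (cutFun_spec (hspec t ht) (by linarith)).1
  · have h1 : ‖cfc cutFun a - a‖ ≤ 8 * ε := by
      conv_lhs => arg 1; arg 2; rw [← cfc_id' ℝ a ha]
      rw [← cfc_sub cutFun (fun s : ℝ => s) a continuous_cutFun.continuousOn (by fun_prop)]
      refine norm_cfc_le (by positivity) fun t ht => ?_
      rw [Real.norm_eq_abs]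
      exact ((cutFun_spec (hspec t ht) (by linarith)).2).trans (by linarith)
    calc ‖cfc cutFun a - p‖ ≤ ‖cfc cutFun a - a‖ + ‖a - p‖ := norm_sub_le_norm_sub_add_norm_sub ..
      _ ≤ 9 * ε := by linarith

/-- Two close projections are conjugate by a unitary near one. -/
theorem exists_unitary_proj {p q : H →L[ℂ] H} (hp : IsStarProjection p) (hq : IsStarProjection q)
    {δ : ℝ} (hδ : δ ≤ 1 / 16) (hd : ‖q - p‖ ≤ δ) :
    ∃ u ∈ unitary (H →L[ℂ] H), ‖u - 1‖ ≤ 14 * δ ∧ star u * p * u = q := by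
  have hδ0 : 0 ≤ δ := (norm_nonneg _).trans hd
  rcases subsingleton_or_nontrivial (H →L[ℂ] H) with hs | hs
  · exact ⟨1, one_mem _, by rw [sub_self, norm_zero]; positivity, Subsingleton.elim _ _⟩
  set w := p * q + (1 - p) * (1 - q) with hw
  have hw1 : ‖w - 1‖ ≤ 2 * δ := by
    have h1 : w - 1 = p * (q - p) + (p - q) * q := by
      simp only [hw, mul_sub, sub_mul, one_mul, mul_one, hp.isIdempotentElem.eq,
        hq.isIdempotentElem.eq]
      abel
    rw [h1]
    calc ‖p * (q - p) + (p - q) * q‖ ≤ ‖p‖ * ‖q - p‖ + ‖p - q‖ * ‖q‖ :=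
          (norm_add_le _ _).trans (add_le_add (norm_mul_le _ _) (norm_mul_le _ _))
      _ ≤ 1 * δ + δ * 1 := by
          rw [norm_sub_rev p q]
          gcongr
          exacts [hp.norm_le, hq.norm_le]
      _ = 2 * δ := by ring
  have hwn : ‖w‖ ≤ 1 + 2 * δ := by
    calc ‖w‖ ≤ ‖(1 : H →L[ℂ] H)‖ + ‖w - 1‖ := norm_le_insert' _ _
      _ ≤ 1 + 2 * δ := by rw [norm_one]; linarith
  set z := star w * w with hz
  have hz1 : ‖z - 1‖ ≤ 5 * δ := by
    have h1 : z - 1 = star (w - 1) * w + (w - 1) := by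
      simp only [hz, star_sub, star_one, sub_mul, one_mul]
      abel
    rw [h1]
    calc ‖star (w - 1) * w + (w - 1)‖ ≤ 2 * δ * (1 + 2 * δ) + 2 * δ := by
          refine (norm_add_le _ _).trans (add_le_add ((norm_mul_le _ _).trans ?_) hw1)
          rw [norm_star]
          gcongr
      _ ≤ 5 * δ := by nlinarith
  have hspec : ∀ t ∈ spectrum ℝ z, |t - 1| ≤ 5 * δ := by
    intro t ht
    have : t - 1 ∈ spectrum ℝ (z - 1) := by
      rw [← map_one (algebraMap ℝ (H →L[ℂ] H)), ← spectrum.sub_singleton_eq]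
      exact Set.sub_mem_sub ht rfl
    exact (spectrum.norm_le_norm_of_mem this).trans hz1
  have hpos : ∀ t ∈ spectrum ℝ z, 0 < t := fun t ht => by
    have := (abs_le.1 (hspec t ht)).1; linarith
  set f : ℝ → ℝ := fun t => 1 / Real.sqrt t with hf
  have hfc : ContinuousOn f (spectrum ℝ z) :=
    continuousOn_const.div Real.continuous_sqrt.continuousOn
      fun t ht => (Real.sqrt_pos.2 (hpos t ht)).ne'
  have hza : IsSelfAdjoint z := IsSelfAdjoint.star_mul_self w
  set g := cfc f z
  have hg : star g = g := (cfc_predicate f z).star_eq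
  have hcg : Commute g z := by
    have h := cfc_commute_cfc f (fun t : ℝ => t) z
    rwa [cfc_id' ℝ z hza] at h
  have hgzg : g * z * g = 1 := by
    calc g * z * g = cfc f z * cfc (fun t : ℝ => t) z * cfc f z := by rw [cfc_id' ℝ z hza]
      _ = cfc (fun t => f t * t * f t) z := by
          rw [cfc_mul (fun t => f t * t) f z (hfc.mul continuousOn_id) hfc,
            cfc_mul f (fun t => t) z hfc continuousOn_id]
      _ = cfc (fun _ : ℝ => (1 : ℝ)) z := cfc_congr fun t ht => by
          have h1 := Real.sqrt_pos.2 (hpos t ht)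
          have h2 := Real.mul_self_sqrt (hpos t ht).le
          simp only [hf]; field_simp; linarith
      _ = 1 := cfc_const_one ℝ z
  have hpw : p * w = p * q ∧ w * q = p * q := by
    simp only [hw, mul_add, add_mul, ← mul_assoc, mul_sub, sub_mul, one_mul, mul_one,
      hp.isIdempotentElem.eq]
    simp only [mul_assoc, hq.isIdempotentElem.eq]
    constructor <;> abel
  have hzq : Commute z q := by
    have h1 : z * q = star w * (p * q) := by rw [hz, mul_assoc, hpw.2]
    have h2 : q * z = star w * (p * q) := by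
      have h3 := congrArg star (hpw.2.trans hpw.1.symm)
      rw [star_mul, star_mul, hq.isSelfAdjoint.star_eq, hp.isSelfAdjoint.star_eq] at h3
      rw [hz, ← mul_assoc, h3, mul_assoc, hpw.1]
    exact h1.trans h2.symm
  have hgq : Commute g q := hzq.cfc_real f
  set u := w * g with hu
  have hleft : star u * u = 1 := by
    rw [hu, star_mul, hg, mul_assoc, ← mul_assoc (star w), ← mul_assoc, ← hz]
    exact hgzg
  have hwu : IsUnit w := by
    have h := isUnit_one_sub_of_norm_lt_one (x := 1 - w) (by rw [norm_sub_rev]; linarith)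
    simpa using h
  have hgu : IsUnit g := isUnit_iff_exists.2 ⟨z * g, by rw [← mul_assoc]; exact hgzg,
    by rw [← hcg.eq]; exact hgzg⟩
  have hright : u * star u = 1 := by
    obtain ⟨a, ha⟩ := hwu.mul hgu
    rw [← hu] at ha
    rw [← ha] at hleft ⊢
    rw [← Units.inv_eq_of_mul_eq_one_left hleft, Units.mul_inv]
  refine ⟨u, ⟨hleft, hright⟩, ?_, ?_⟩
  · have hg1 : ‖g - 1‖ ≤ 5 * δ := by
      rw [← cfc_const_one ℝ z, ← cfc_sub f (fun _ => 1) z hfc continuousOn_const]
      refine norm_cfc_le (by positivity) fun t ht => ?_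
      have h0 := hpos t ht
      have hs := Real.sqrt_pos.2 h0
      have h2 := Real.mul_self_sqrt h0.le
      obtain ⟨hl, hr⟩ := abs_le.1 (hspec t ht)
      have hsl : 3 / 4 ≤ Real.sqrt t := Real.le_sqrt_of_sq_le (by linarith)
      rw [Real.norm_eq_abs, hf, abs_le]
      constructor
      · rw [le_sub_iff_add_le, le_div_iff₀ hs]
        nlinarith
      · rw [sub_le_iff_le_add, div_le_iff₀ hs]
        nlinarith
    have h1 : u - 1 = w * (g - 1) + (w - 1) := by
      rw [hu, mul_sub, mul_one]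
      abel
    rw [h1]
    calc ‖w * (g - 1) + (w - 1)‖ ≤ (1 + 2 * δ) * (5 * δ) + 2 * δ := by
          refine (norm_add_le _ _).trans (add_le_add ((norm_mul_le _ _).trans ?_) hw1)
          gcongr
      _ ≤ 14 * δ := by nlinarith
  · have h1 : p * u = u * q := by
      rw [hu, ← mul_assoc, hpw.1, ← hpw.2, mul_assoc, mul_assoc, hgq.eq]
    rw [mul_assoc, h1, ← mul_assoc, hleft, one_mul]

/-- A projection near an algebra is conjugate, by a unitary near one, to a projection in it. -/
theorem exists_conj_proj (M : VonNeumannAlgebra H) {p : H →L[ℂ] H} (hp : IsStarProjection p)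
    {ε : ℝ} (hε : ε ≤ 1 / 150) (hx : ∃ x ∈ M, ‖x - p‖ ≤ ε) :
    ∃ u ∈ unitary (H →L[ℂ] H), ‖u - 1‖ ≤ 126 * ε ∧ star u * p * u ∈ M := by
  obtain ⟨x, hxM, hxp⟩ := hx
  have hd : ‖(2 : ℂ)⁻¹ • (x + star x) - p‖ ≤ ε := by
    have h1 : (2 : ℂ)⁻¹ • (x + star x) - p = (2 : ℂ)⁻¹ • ((x - p) + star (x - p)) := by
      rw [star_sub, hp.isSelfAdjoint.star_eq]
      module
    rw [h1, norm_smul, norm_inv, Complex.norm_two]
    have := norm_add_le (x - p) (star (x - p))
    rw [norm_star] at this
    linarith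
  obtain ⟨q, hqM, hq, hqp⟩ := exists_proj_near M hp
    (M.toStarSubalgebra.smul_mem (add_mem hxM (star_mem hxM)) (2 : ℂ)⁻¹)
    (IsSelfAdjoint.smul (by simp) (IsSelfAdjoint.add_star_self x)) (by linarith) hd
  obtain ⟨u, hu, hu1, huq⟩ := exists_unitary_proj hp hq (δ := 9 * ε) (by linarith) hqp
  exact ⟨u, hu, hu1.trans (by linarith), huq.symm ▸ hqM⟩

end Vale.Agent.P096.Reduce
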