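import Vale.Agent.P096.Iface
import Vale.Agent.P096.Reduce.Proj
import Vale.Agent.P082.Central.Corner
import Vale.Agent.P078.General.Weak

/-!
# P096: from finite corners to the whole algebra
-/

namespace Vale.Agent.P096.Reduce

open scoped InnerProductSpace Topology
open Filter
open Vale.Agent.P082 (Alg)
open Vale.Agent.P082.Central
open Vale.Agent.P082.Scope (HasNormalTraces)

universe u

variable {H : Type u} [NormedAddCommGroup H] [InnerProductSpace ℂ H] [CompleteSpace H]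
variable {M N : VonNeumannAlgebra H}

/-- The algebra `u M u*`. -/
noncomputable def conjAlg (u : H →L[ℂ] H) (M : VonNeumannAlgebra H) : VonNeumannAlgebra H where
  toStarSubalgebra := StarSubalgebra.centralizer ℂ
    ((fun y => u * y * star u) '' (M.commutant : Set (H →L[ℂ] H)))
  centralizer_centralizer' := Set.centralizer_centralizer_centralizer _

variable {u : H →L[ℂ] H} (hu : u ∈ unitary (H →L[ℂ] H))

include hu in
theorem conj_mem {x : H →L[ℂ] H} (hx : x ∈ M) : u * x * star u ∈ conjAlg u M := by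
  change _ ∈ StarSubalgebra.centralizer ℂ _
  rw [StarSubalgebra.mem_centralizer_iff]
  have key : ∀ y ∈ M.commutant, u * y * star u * (u * x * star u) =
      u * x * star u * (u * y * star u) := by
    intro y hy
    have h1 : ∀ a b : H →L[ℂ] H, u * a * star u * (u * b * star u) = u * (a * b) * star u :=
      fun a b => by
        simp only [mul_assoc]
        rw [← mul_assoc (star u) u, Unitary.star_mul_self_of_mem hu, one_mul]
    rw [h1, h1, VonNeumannAlgebra.mem_commutant_iff.1 hy x hx]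
  rintro _ ⟨y, hy, rfl⟩
  refine ⟨key y hy, ?_⟩
  rw [star_mul, star_mul, star_star, ← mul_assoc]
  exact key _ (star_mem hy)

include hu in
theorem of_mem_conjAlg {T : H →L[ℂ] H} (hT : T ∈ conjAlg u M) : star u * T * u ∈ M := by
  rw [← VonNeumannAlgebra.commutant_commutant M, VonNeumannAlgebra.mem_commutant_iff]
  intro y hy
  change T ∈ StarSubalgebra.centralizer ℂ _ at hT
  rw [StarSubalgebra.mem_centralizer_iff] at hT
  have h1 := congrArg (fun S => star u * S * u) (hT _ ⟨y, hy, rfl⟩).1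
  simp only [mul_assoc, Unitary.star_mul_self_of_mem hu, mul_one] at h1
  simp only [← mul_assoc, Unitary.star_mul_self_of_mem hu, one_mul] at h1
  simp only [← mul_assoc]
  exact h1

theorem norm_conj_sub_le (hu : u ∈ unitary (H →L[ℂ] H)) {δ : ℝ} (hd : ‖u - 1‖ ≤ δ)
    (x : H →L[ℂ] H) : ‖u * x * star u - x‖ ≤ 2 * δ * ‖x‖ := by
  have h1 : u * x * star u - x = (u - 1) * x * star u + x * star (u - 1) := by
    simp only [sub_mul, one_mul, star_sub, star_one, mul_sub, mul_one]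
    abel
  have hn : ‖star u‖ ≤ 1 := (star u).opNorm_le_bound zero_le_one fun v => by
    rw [ContinuousLinearMap.norm_map_of_mem_unitary (Unitary.star_mem hu), one_mul]
  rw [h1]
  calc ‖(u - 1) * x * star u + x * star (u - 1)‖
      ≤ ‖u - 1‖ * ‖x‖ * ‖star u‖ + ‖x‖ * ‖star (u - 1)‖ :=
        (norm_add_le _ _).trans (add_le_add ((norm_mul_le _ _).trans
          (mul_le_mul_of_nonneg_right (norm_mul_le _ _) (norm_nonneg _))) (norm_mul_le _ _))
    _ ≤ δ * ‖x‖ * 1 + ‖x‖ * δ := by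
        rw [norm_star (u - 1)]
        gcongr
        exact mul_nonneg ((norm_nonneg _).trans hd) (norm_nonneg _)
    _ = 2 * δ * ‖x‖ := by ring

theorem norm_conj_le (hu : u ∈ unitary (H →L[ℂ] H)) (x : H →L[ℂ] H) :
    ‖u * x * star u‖ ≤ ‖x‖ := by
  have hn : ∀ w ∈ unitary (H →L[ℂ] H), ‖w‖ ≤ 1 := fun w hw =>
    w.opNorm_le_bound zero_le_one fun v => by
      rw [ContinuousLinearMap.norm_map_of_mem_unitary hw, one_mul]
  calc ‖u * x * star u‖ ≤ ‖u‖ * ‖x‖ * ‖star u‖ :=
        (norm_mul_le _ _).trans (mul_le_mul_of_nonneg_right (norm_mul_le _ _) (norm_nonneg _))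
    _ ≤ 1 * ‖x‖ * 1 := by gcongr <;> exact hn _ (by first | exact hu | exact Unitary.star_mem hu)
    _ = ‖x‖ := by ring

include hu in
theorem ballNear_conj {ε δ : ℝ} (hd : ‖u - 1‖ ≤ δ) (h : Near M N ε) :
    Near (conjAlg u M) N (ε + 2 * δ) := by
  have hδ0 : 0 ≤ δ := (norm_nonneg _).trans hd
  have hu' := Unitary.star_mem hu
  constructor
  · intro T hT h1
    have h2 : ‖star u * T * u‖ ≤ 1 := by
      simpa using (norm_conj_le hu' T).trans h1
    obtain ⟨y, hy, hy1, hxy⟩ := h.1 _ (of_mem_conjAlg hu hT) h2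
    refine ⟨y, hy, hy1, ?_⟩
    have h3 := norm_conj_sub_le hu' (δ := δ) (by
      rw [← norm_star, star_sub, star_star, star_one]; exact hd) T
    rw [star_star] at h3
    calc ‖T - y‖ ≤ ‖T - star u * T * u‖ + ‖star u * T * u - y‖ :=
          norm_sub_le_norm_sub_add_norm_sub ..
      _ ≤ 2 * δ * ‖T‖ + ε := add_le_add (by rwa [norm_sub_rev]) hxy
      _ ≤ ε + 2 * δ := by nlinarith
  · intro y hy h1
    obtain ⟨x, hx, hx1, hyx⟩ := h.2 y hy h1
    refine ⟨u * x * star u, conj_mem hu hx, (norm_conj_le hu x).trans hx1, ?_⟩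
    calc ‖y - u * x * star u‖ ≤ ‖y - x‖ + ‖x - u * x * star u‖ :=
          norm_sub_le_norm_sub_add_norm_sub ..
      _ ≤ ε + 2 * δ * ‖x‖ := add_le_add hyx (by
          rw [norm_sub_rev]; exact norm_conj_sub_le hu hd x)
      _ ≤ ε + 2 * δ := by nlinarith

/-! ## Corners -/

variable {p : H →L[ℂ] H} (hp : IsStarProjection p)

theorem ext_restr_eq (X : H →L[ℂ] H) : ext hp (restr hp X) = p * X * p :=
  ContinuousLinearMap.ext fun v => by
    rw [ext_apply, coe_restr_apply, coe_toC, mul_apply_eq_comp, mul_apply_eq_comp]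

theorem restr_mem_corner {M : VonNeumannAlgebra H} (hM : p ∈ M) {x : H →L[ℂ] H} (hx : x ∈ M) :
    restr hp x ∈ cAlg hp M := by
  change restr hp x ∈ StarSubalgebra.centralizer ℂ _
  rw [StarSubalgebra.mem_centralizer_iff]
  have key : ∀ y ∈ M.commutant, restr hp y * restr hp x = restr hp x * restr hp y := by
    intro y hy
    have hyc := VonNeumannAlgebra.mem_commutant_iff.1 hy
    rw [← restr_mul hp (hyc p hM) x]
    refine ContinuousLinearMap.ext fun v => Subtype.ext ?_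
    rw [mul_apply_eq_comp, coe_restr_apply, coe_restr_apply, coe_restr_apply, mul_apply_eq_comp]
    have hpy : ∀ a, p (y a) = y (p a) := fun a => congrArg (fun T : H →L[ℂ] H => T a) (hyc p hM)
    have hxy : ∀ a, x (y a) = y (x a) := fun a => congrArg (fun T : H →L[ℂ] H => T a) (hyc x hx)
    simp only [hpy, hxy, apply_coe (z := p)]
  rintro _ ⟨y, hy, rfl⟩
  exact ⟨key y hy, by rw [star_restr]; exact key _ (star_mem hy)⟩

theorem ext_sub' (S T : cSpace p →L[ℂ] cSpace p) : ext hp (S - T) = ext hp S - ext hp T := by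
  rw [eq_sub_iff_add_eq, ← ext_add, sub_add_cancel]

theorem ballNear_corner (hM : p ∈ M) (hN : p ∈ N) {ε : ℝ} (h : BallNear M N ε) :
    BallNear (cAlg hp M) (cAlg hp N) ε := by
  intro T hT h1
  obtain ⟨y, hy, hy1, hxy⟩ := h _ (ext_mem hp hM hT) ((norm_ext_le hp T).trans h1)
  refine ⟨restr hp y, restr_mem_corner hp hN hy, (norm_restr_le hp y).trans hy1, ?_⟩
  have h2 : T - restr hp y = restr hp (ext hp T - y) := by
    rw [eq_comm, eq_sub_iff_add_eq, ← restr_add, sub_add_cancel, restr_ext]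
  rw [h2]
  exact (norm_restr_le hp _).trans hxy

/-! ## The limit -/

/-- Projections with finite corners tend strongly to one. -/
def HasFiniteCorners (N : VonNeumannAlgebra H) : Prop :=
  ∀ (F : Finset H) (δ : ℝ), 0 < δ → ∃ p ∈ N, ∃ hp : IsStarProjection p,
    HasNormalTraces (cAlg hp N) ∧ ∀ v ∈ F, ‖p v - v‖ ≤ δ

/-- `x ↦ u x u*` compressed to the corner. -/
noncomputable def toCorner (hu : u ∈ unitary (H →L[ℂ] H)) (M : VonNeumannAlgebra H)
    (hM : p ∈ conjAlg u M) : Alg M →ₗ[ℂ] Alg (cAlg hp (conjAlg u M)) where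
  toFun x := ⟨restr hp (u * (x : H →L[ℂ] H) * star u), restr_mem_corner hp hM (conj_mem hu x.2)⟩
  map_add' x y := Subtype.ext <| by
    show restr hp (u * ((x : H →L[ℂ] H) + y) * star u) =
      restr hp (u * (x : H →L[ℂ] H) * star u) + restr hp (u * (y : H →L[ℂ] H) * star u)
    rw [mul_add, add_mul, restr_add]
  map_smul' c x := Subtype.ext <| by
    show restr hp (u * (c • (x : H →L[ℂ] H)) * star u) =
      c • restr hp (u * (x : H →L[ℂ] H) * star u)
    rw [mul_smul_comm, smul_mul_assoc, restr_smul]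

/-- An element of a corner, on the whole space. -/
noncomputable def fromCorner (N : VonNeumannAlgebra H) :
    Alg (cAlg hp N) →ₗ[ℂ] (H →L[ℂ] H) where
  toFun T := ext hp (T : cSpace p →L[ℂ] cSpace p)
  map_add' S T := ext_add hp (S : cSpace p →L[ℂ] cSpace p) (T : cSpace p →L[ℂ] cSpace p)
  map_smul' c T := ext_smul hp c (T : cSpace p →L[ℂ] cSpace p)

/-- The linear map on one corner, as a linear map into the whole algebra. -/
theorem exists_corner_map {C ε₀ ε : ℝ} (hC : 0 ≤ C)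
    (hA : ∀ (K : Type u) [NormedAddCommGroup K] [InnerProductSpace ℂ K] [CompleteSpace K]
      (A B : VonNeumannAlgebra K) (e : ℝ), HasNormalTraces B → 0 ≤ e → e ≤ ε₀ → Near A B e →
        NearLinear A B (C * e))
    (hε : 0 ≤ ε) (hs : 253 * ε ≤ ε₀) (hs' : ε ≤ 1 / 150) (hn : Near M N ε)
    (hpN : p ∈ N) (hT : HasNormalTraces (cAlg hp N)) :
    ∃ Φ : Alg M →ₗ[ℂ] (H →L[ℂ] H), (∀ x, Φ x ∈ N) ∧
      ∀ x : Alg M, ‖Φ x - p * (x : H →L[ℂ] H) * p‖ ≤ (253 * C + 252) * ε * ‖x‖ := by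
  obtain ⟨x₀, hx₀, -, hx₀p⟩ := hn.2 p hpN hp.norm_le
  obtain ⟨u, hu, hu1, hpu⟩ := exists_conj_proj M hp hs' ⟨x₀, hx₀, by rwa [norm_sub_rev]⟩
  have hpM : p ∈ conjAlg u M := by
    have h := conj_mem hu hpu
    simp only [← mul_assoc, Unitary.mul_star_self_of_mem hu, one_mul] at h
    simp only [mul_assoc, Unitary.mul_star_self_of_mem hu, mul_one] at h
    exact h
  have hn1 : Near (conjAlg u M) N (253 * ε) := by
    have h := ballNear_conj hu hu1 hn
    rwa [show ε + 2 * (126 * ε) = 253 * ε by ring] at h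
  obtain ⟨L, hL⟩ := hA _ (cAlg hp (conjAlg u M)) (cAlg hp N) (253 * ε) hT (by positivity) hs
    ⟨ballNear_corner hp hpM hpN hn1.1, ballNear_corner hp hpN hpM hn1.2⟩
  refine ⟨(fromCorner hp N).comp (L.comp (toCorner hp hu M hpM)),
    fun x => ext_mem hp hpN (L (toCorner hp hu M hpM x)).2, fun x => ?_⟩
  set Y := toCorner hp hu M hpM x with hY
  have h1 : ‖(Y : cSpace p →L[ℂ] cSpace p)‖ ≤ ‖x‖ :=
    (norm_restr_le hp _).trans (norm_conj_le hu _)
  have h2 : ‖ext hp (L Y : cSpace p →L[ℂ] cSpace p) - p * (u * (x : H →L[ℂ] H) * star u) * p‖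
      ≤ C * (253 * ε) * ‖x‖ := by
    rw [← ext_restr_eq hp, ← ext_sub']
    exact (norm_ext_le hp _).trans ((hL Y).trans
      (mul_le_mul_of_nonneg_left h1 (by positivity)))
  have h3 : ‖p * (u * (x : H →L[ℂ] H) * star u) * p - p * (x : H →L[ℂ] H) * p‖ ≤
      2 * (126 * ε) * ‖x‖ := by
    rw [← sub_mul, ← mul_sub]
    calc ‖p * (u * (x : H →L[ℂ] H) * star u - x) * p‖
        ≤ ‖p‖ * ‖u * (x : H →L[ℂ] H) * star u - x‖ * ‖p‖ :=
          (norm_mul_le _ _).trans (mul_le_mul_of_nonneg_right (norm_mul_le _ _) (norm_nonneg _))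
      _ ≤ 1 * (2 * (126 * ε) * ‖x‖) * 1 := by
          gcongr
          exacts [hp.norm_le, norm_conj_sub_le hu hu1 _, hp.norm_le]
      _ = _ := by ring
  refine (norm_sub_le_norm_sub_add_norm_sub _ _ _).trans ((add_le_add h2 h3).trans_eq ?_)
  ring

/-- The linear map when finite corners tend to one. -/
theorem nearLinear_of_corners (h : Iface.StmtA.{u}) :
    ∃ C ε₀ : ℝ, 0 ≤ C ∧ 0 < ε₀ ∧
      ∀ (H : Type u) [NormedAddCommGroup H] [InnerProductSpace ℂ H] [CompleteSpace H]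
        (M N : VonNeumannAlgebra H) (ε : ℝ), HasFiniteCorners N →
        0 ≤ ε → ε ≤ ε₀ → Near M N ε → NearLinear M N (C * ε) := by
  classical
  obtain ⟨C, ε₀, hC, hε₀, hA⟩ := h
  refine ⟨253 * C + 252, min (ε₀ / 253) (1 / 150), by positivity, by positivity,
    fun H _ _ _ M N ε hN h0 h1 hn => ?_⟩
  have hs : 253 * ε ≤ ε₀ := by linarith [h1.trans (min_le_left _ _)]
  have hδ : ∀ i : Finset H × ℕ, (0 : ℝ) < 1 / ((i.2 : ℝ) + 1) := fun i => by positivity
  choose p hpN hp hT hpv using fun i : Finset H × ℕ => hN i.1 _ (hδ i)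
  choose Φ hΦN hΦ using fun i => exists_corner_map (hp i) hC hA h0 hs
    (h1.trans (min_le_right _ _)) hn (hpN i) (hT i)
  set K := (253 * C + 252) * ε with hK
  have hK0 : 0 ≤ K := by positivity
  have hb : ∀ (x : Alg M) i, ‖Φ i x‖ ≤ (K + 1) * ‖x‖ := fun x i => by
    calc ‖Φ i x‖ ≤ ‖Φ i x - p i * (x : H →L[ℂ] H) * p i‖ + ‖p i * (x : H →L[ℂ] H) * p i‖ :=
          norm_le_norm_sub_add _ _
      _ ≤ K * ‖x‖ + 1 * ‖(x : H →L[ℂ] H)‖ * 1 := by
          refine add_le_add (hΦ i x) ((norm_mul_le _ _).trans ?_)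
          gcongr
          · exact (norm_mul_le _ _).trans
              (mul_le_mul_of_nonneg_right (hp i).norm_le (norm_nonneg _))
          · exact (hp i).norm_le
      _ = (K + 1) * ‖x‖ := by
          rw [one_mul, mul_one, show ‖x‖ = ‖(x : H →L[ℂ] H)‖ from rfl]
          ring
  let U : Ultrafilter (Finset H × ℕ) := Ultrafilter.of atTop
  choose L hlim hLn using fun x : Alg M =>
    Vale.Agent.P078.General.exists_wot_limit U (fun i => Φ i x) (hb x)
  have huniq : ∀ (x : Alg M) (T : H →L[ℂ] H),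
      (∀ v w, Tendsto (fun i => ⟪Φ i x v, w⟫_ℂ) (U : Filter _) (𝓝 ⟪T v, w⟫_ℂ)) → L x = T :=
    fun x T hT => ContinuousLinearMap.ext fun v => ext_inner_right ℂ fun w =>
      tendsto_nhds_unique (hlim x v w) (hT v w)
  have hmem : ∀ x, L x ∈ N := by
    intro x
    rw [← VonNeumannAlgebra.commutant_commutant N, VonNeumannAlgebra.mem_commutant_iff]
    intro y hy
    refine ContinuousLinearMap.ext fun v => ext_inner_right ℂ fun w => ?_
    rw [mul_apply_eq_comp, mul_apply_eq_comp, ← ContinuousLinearMap.adjoint_inner_right y]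
    refine tendsto_nhds_unique (hlim x v (ContinuousLinearMap.adjoint y w))
      ((hlim x (y v) w).congr fun i => ?_)
    rw [ContinuousLinearMap.adjoint_inner_right, ← mul_apply_eq_comp (Φ i x) y,
      ← mul_apply_eq_comp y (Φ i x), VonNeumannAlgebra.mem_commutant_iff.1 hy _ (hΦN i x)]
  refine ⟨{ toFun := fun x => ⟨L x, hmem x⟩
            map_add' := fun x y => Subtype.ext (huniq _ _ fun v w => by
              show Tendsto _ _ (𝓝 ⟪(L x + L y) v, w⟫_ℂ)
              simpa [inner_add_left] using (hlim x v w).add (hlim y v w))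
            map_smul' := fun c x => Subtype.ext (huniq _ _ fun v w => by
              show Tendsto _ _ (𝓝 ⟪(c • L x) v, w⟫_ℂ)
              simpa [inner_smul_left, mul_comm] using (hlim x v w).const_mul (starRingEnd ℂ c)) },
    fun x => ?_⟩
  show ‖L x - (x : H →L[ℂ] H)‖ ≤ K * ‖x‖
  have hp1 : ∀ v, Tendsto (fun i => p i v) (U : Filter _) (𝓝 v) := by
    intro v
    refine Tendsto.mono_left (x := atTop) ?_ (Ultrafilter.of_le atTop)
    rw [Metric.tendsto_nhds]
    intro e he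
    obtain ⟨m, hm⟩ := exists_nat_one_div_lt he
    rw [eventually_atTop]
    refine ⟨({v}, m), fun i hi => ?_⟩
    rw [dist_eq_norm]
    refine lt_of_le_of_lt ((hpv i v (Finset.singleton_subset_iff.1 hi.1)).trans ?_) hm
    gcongr
    exact_mod_cast hi.2
  refine ContinuousLinearMap.opNorm_le_bound _ (by positivity) fun v => ?_
  set w := (L x - (x : H →L[ℂ] H)) v
  have h2 : Tendsto (fun i => ‖⟪(Φ i x - p i * (x : H →L[ℂ] H) * p i) v, w⟫_ℂ‖) (U : Filter _)
      (𝓝 ‖⟪w, w⟫_ℂ‖) := by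
    refine Tendsto.norm ?_
    have e : ∀ i, ⟪(Φ i x - p i * (x : H →L[ℂ] H) * p i) v, w⟫_ℂ =
        ⟪Φ i x v, w⟫_ℂ - ⟪(x : H →L[ℂ] H) (p i v), p i w⟫_ℂ := fun i => by
      rw [sub_apply, inner_sub_left, mul_apply_eq_comp, mul_apply_eq_comp, inner_z (hp i)]
    simp only [e]
    have h3 := (hlim x v w).sub (Tendsto.inner (𝕜 := ℂ)
      (((x : H →L[ℂ] H).continuous.tendsto v).comp (hp1 v)) (hp1 w))
    rw [show ⟪w, w⟫_ℂ = ⟪L x v, w⟫_ℂ - ⟪(x : H →L[ℂ] H) v, w⟫_ℂ by
      rw [← inner_sub_left]; rfl]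
    exact h3
  have h4 : ‖⟪w, w⟫_ℂ‖ ≤ K * ‖x‖ * ‖v‖ * ‖w‖ := le_of_tendsto h2 (.of_forall fun i =>
    (norm_inner_le_norm _ _).trans (mul_le_mul_of_nonneg_right
      (((Φ i x - p i * (x : H →L[ℂ] H) * p i).le_opNorm v).trans
        (mul_le_mul_of_nonneg_right (hΦ i x) (norm_nonneg _))) (norm_nonneg _)))
  rw [inner_self_eq_norm_sq_to_K, norm_pow, RCLike.norm_ofReal, abs_norm, pow_two] at h4
  rcases (norm_nonneg w).eq_or_lt with h5 | h5
  · rw [← h5]; positivity
  · exact le_of_mul_le_mul_right h4 h5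

end Vale.Agent.P096.Reduce
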