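import Vale.Agent.P096.Iface
import Vale.Agent.P082.Scope.Amplify

/-!
# P096: from separating tracial vectors to finite algebras
-/

namespace Vale.Agent.P096.Reduce

open Vale.Agent.P082 (Alg)
open Vale.Agent.P082.Scope

universe u

variable {H : Type u} [NormedAddCommGroup H] [InnerProductSpace ℂ H] [CompleteSpace H]
variable {M N : VonNeumannAlgebra H} {ε η : ℝ}

theorem amp_sub (x y : H →L[ℂ] H) : amp x - amp y = amp (x - y) :=
  (map_sub (ampHom H) x y).symm

theorem ballNear_amp (h : BallNear M N ε) : BallNear (ampAlg M) (ampAlg N) ε := by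
  intro X hX h1
  obtain ⟨x, hx, rfl⟩ := mem_ampAlg.1 hX
  rw [norm_amp] at h1
  obtain ⟨y, hy, hy1, hxy⟩ := h x hx h1
  exact ⟨amp y, mem_ampAlg.2 ⟨y, hy, rfl⟩, by rwa [norm_amp],
    by rw [amp_sub, norm_amp]; exact hxy⟩

theorem nearLinear_of_amp (h : NearLinear (ampAlg M) (ampAlg N) η) : NearLinear M N η := by
  obtain ⟨L, hL⟩ := h
  have key : ∀ x : Alg M, ∃ y : Alg N, toAmp N y = L (toAmp M x) := fun x => by
    obtain ⟨y, hy, hyY⟩ := mem_ampAlg.1 (L (toAmp M x)).2
    exact ⟨⟨y, hy⟩, Subtype.ext hyY⟩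
  choose f hf using key
  have hinj : Function.Injective (toAmp N) := fun a b hab => Subtype.ext <| sub_eq_zero.1 <|
    norm_eq_zero.1 (by rw [← norm_amp, ← amp_sub, ← toAmp_val, ← toAmp_val, hab, sub_self,
      norm_zero])
  refine ⟨{ toFun := f, map_add' := fun x y => hinj ?_, map_smul' := fun c x => hinj ?_ },
    fun x => ?_⟩
  · rw [hf, map_add, map_add, map_add, hf, hf]
  · rw [hf, map_smul, map_smul, RingHom.id_apply, map_smul, hf]
  · have h1 := hL (toAmp M x)
    rw [← hf x, toAmp_val, toAmp_val, amp_sub, norm_amp] at h1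
    refine h1.trans (le_of_eq ?_)
    show η * ‖(toAmp M x : Seq H →L[ℂ] Seq H)‖ = η * ‖(x : H →L[ℂ] H)‖
    rw [toAmp_val, norm_amp]

/-- The linear map for finite algebras, from the core. -/
theorem stmtA_of (h : Iface.StmtACore.{u}) : Iface.StmtA.{u} := by
  obtain ⟨C, ε₀, hC, hε₀, h⟩ := h
  exact ⟨C, ε₀, hC, hε₀, fun H _ _ _ M N ε hN h0 h1 hn => nearLinear_of_amp
    (h _ _ _ ε (hasTracialVectors_ampAlg hN) h0 h1 ⟨ballNear_amp hn.1, ballNear_amp hn.2⟩)⟩

/-- The conjecture for finite algebras, from the linear map and its correction. -/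
theorem stmtFinite_of (hA : Iface.StmtA.{u}) (hB : Iface.StmtB.{u}) :
    Iface.StmtFinite.{u} := by
  obtain ⟨C, a, hC, ha, hA⟩ := hA
  obtain ⟨K, b, hK, hb, hB⟩ := hB
  intro ε hε
  refine ⟨min a (min (b / (C + 1)) (ε / ((K + 1) * (C + 1)))), by positivity,
    fun H _ _ _ M N hN hn => ?_⟩
  set δ := min a (min (b / (C + 1)) (ε / ((K + 1) * (C + 1)))) with hδ
  have hδ0 : 0 < δ := by positivity
  have h1 : δ * (C + 1) ≤ b := by
    rw [← le_div_iff₀ (by linarith)]
    exact (min_le_right _ _).trans (min_le_left _ _)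
  have h2 : (K + 1) * (δ * (C + 1)) ≤ ε := by
    have h := (min_le_right a _).trans (min_le_right (b / (C + 1)) (ε / ((K + 1) * (C + 1))))
    rw [← hδ, le_div_iff₀ (by positivity)] at h
    linarith
  obtain ⟨L, hL⟩ := hA H M N δ hN hδ0.le (min_le_left _ _) hn
  have hmono : ∀ {A B : VonNeumannAlgebra H}, BallNear A B δ → BallNear A B (δ * (C + 1)) :=
    fun h x hx hx1 => by
      obtain ⟨y, hy, hy1, hxy⟩ := h x hx hx1
      exact ⟨y, hy, hy1, hxy.trans (le_mul_of_one_le_right hδ0.le (by linarith))⟩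
  obtain ⟨u, hu, hu1, hc⟩ := hB H M N (δ * (C + 1)) (by positivity) h1
    ⟨hmono hn.1, hmono hn.2⟩
    ⟨L, fun x => (hL x).trans (mul_le_mul_of_nonneg_right (by nlinarith) (norm_nonneg _))⟩
  exact ⟨u, hu, lt_of_lt_of_le (hu1.trans_lt (by nlinarith)) h2, hc⟩

end Vale.Agent.P096.Reduce
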