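import Vale.Agent.P096.Reduce.Corner
import Vale.Agent.P082.Every.C1.Compare
import Vale.Agent.P082.Every.C2.Main

/-!
# P096: semifinite algebras have finite corners tending to one
-/

namespace Vale.Agent.P096.Reduce

open scoped InnerProductSpace
open Vale.Agent.P082 (Alg)
open Vale.Agent.P082.Central
open Vale.Agent.P082.Scope (HasNormalTraces IsDiag)
open Vale.Agent.P078.General Vale.Agent.P132.Homog

universe u

variable {H : Type u} [NormedAddCommGroup H] [InnerProductSpace ℂ H] [CompleteSpace H]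
variable {N : VonNeumannAlgebra H}

/-- A finite projection: it is equivalent to no proper part of itself. -/
def IsFiniteProj (N : VonNeumannAlgebra H) (e : H →L[ℂ] H) : Prop :=
  IsStarProjection e ∧ e ∈ N ∧ ∀ v ∈ N, star v * v = e → e * v = v → v * star v = e

/-- Semifinite: every nonzero projection dominates a nonzero finite projection. -/
def IsSemifiniteVN (N : VonNeumannAlgebra H) : Prop :=
  ∀ p ∈ N, IsStarProjection p → p ≠ 0 → ∃ e, IsFiniteProj N e ∧ e ≠ 0 ∧ p * e = e

/-- The normal traces of the corner of `e` separate it. -/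
def Traced (N : VonNeumannAlgebra H) (e : H →L[ℂ] H) : Prop :=
  ∀ y ∈ N, e * y * e = y → y ≠ 0 → ∃ ξ : ℕ → H, Summable (fun n => ‖ξ n‖ ^ 2) ∧
    (∀ n, e (ξ n) = ξ n) ∧
    (∀ x ∈ N, e * x * e = x → ∑' n, ‖star x (ξ n)‖ ^ 2 = ∑' n, ‖x (ξ n)‖ ^ 2) ∧
    ∃ n, y (ξ n) ≠ 0

variable {e : H →L[ℂ] H}

theorem ext_corner (he : IsStarProjection e) (T : cSpace e →L[ℂ] cSpace e) :
    e * ext he T * e = ext he T := by
  rw [← ext_restr_eq he, restr_ext]

theorem hasNormalTraces_of_traced (he : IsStarProjection e) (heN : e ∈ N) (h : Traced N e) :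
    HasNormalTraces (cAlg he N) := by
  intro Y hY hY0
  obtain ⟨ξ, hs, hξ, htr, n, hn⟩ := h _ (ext_mem he heN hY) (ext_corner he Y) fun h0 => hY0 (by
    rw [← restr_ext he Y, h0]
    exact ContinuousLinearMap.ext fun v => Subtype.ext (by
      rw [coe_restr_apply]; exact map_zero e))
  let η : ℕ → cSpace e := fun n => ⟨ξ n, mem_cSpace.2 (hξ n)⟩
  have hval : ∀ (T : cSpace e →L[ℂ] cSpace e) n, ((T (η n) : cSpace e) : H) = ext he T (ξ n) :=
    fun T n => by
      rw [ext_apply, show toC he (ξ n) = η n from toC_coe he (η n)]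
  have hnorm : ∀ (T : cSpace e →L[ℂ] cSpace e) n, ‖T (η n)‖ = ‖ext he T (ξ n)‖ :=
    fun T n => by rw [← hval]; rfl
  refine ⟨η, hs, fun T hT => ?_, n, fun h0 => hn ?_⟩
  · simp only [hnorm, ← star_ext]
    exact htr _ (ext_mem he heN hT) (ext_corner he T)
  · rw [← hval, h0, Submodule.coe_zero]

theorem traced_of_hasNormalTraces (he : IsStarProjection e) (heN : e ∈ N)
    (h : HasNormalTraces (cAlg he N)) : Traced N e := by
  intro y hy hcy hy0
  have key : ∀ x, e * x * e = x → ext he (restr he x) = x := fun x hx => by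
    rw [ext_restr_eq, hx]
  obtain ⟨η, hs, htr, n, hn⟩ := h _ (restr_mem_corner he heN hy) fun h0 => hy0 (by
    rw [← key y hcy, h0]
    exact ContinuousLinearMap.ext fun v => by rw [ext_apply]; rfl)
  have hval : ∀ x, e * x * e = x → ∀ k, x (η k : H) = (restr he x (η k) : H) := fun x hx k => by
    conv_lhs => rw [← key x hx]
    rw [ext_apply, toC_coe]
  have hsx : ∀ x, e * x * e = x → e * star x * e = star x := fun x hx => by
    conv_rhs => rw [← hx]
    rw [star_mul, star_mul, he.isSelfAdjoint.star_eq, mul_assoc]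
  refine ⟨fun k => (η k : H), hs, fun k => apply_coe (η k), fun x hx hcx => ?_, n, fun h0 => ?_⟩
  · have h1 := htr _ (restr_mem_corner he heN hx)
    simp only [star_restr] at h1
    simp only [hval x hcx, hval _ (hsx x hcx)]
    exact h1
  · exact hn (Subtype.ext (by rw [← hval y hcy]; exact h0))

theorem traced_of_finite (h : IsFiniteProj N e) : Traced N e := by
  obtain ⟨he, heN, hfin⟩ := h
  refine traced_of_hasNormalTraces he heN (Vale.Agent.P082.Every.C2.stmtC2 _ _ fun V hV => ?_)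
  have h1 : ext he (1 : cSpace e →L[ℂ] cSpace e) = e := ContinuousLinearMap.ext fun v => by
    rw [ext_apply, one_apply_eq_self, coe_toC]
  have hV' : star (V : cSpace e →L[ℂ] cSpace e) * (V : cSpace e →L[ℂ] cSpace e) = 1 :=
    congrArg Subtype.val hV
  have h2 := hfin _ (ext_mem he heN V.2) (by rw [star_ext, ← ext_mul, hV', h1])
    (mul_ext he _)
  rw [star_ext, ← ext_mul] at h2
  refine Subtype.ext ?_
  have h3 := congrArg (restr he) h2
  rw [restr_ext] at h3
  show (V : cSpace e →L[ℂ] cSpace e) * star (V : cSpace e →L[ℂ] cSpace e) = 1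
  rw [h3]
  exact ContinuousLinearMap.ext fun v => Subtype.ext (by
    rw [coe_restr_apply, apply_coe, apply_coe, one_apply_eq_self])

/-- Algebras with separating normal traces are semifinite. -/
theorem isSemifiniteVN_of_hasNormalTraces (h : HasNormalTraces N) : IsSemifiniteVN N := by
  intro p hp hpp hp0
  refine ⟨p, ⟨hpp, hp, fun v hv h1 h2 => ?_⟩, hp0, hpp.isIdempotentElem.eq⟩
  by_contra hne
  set f := v * star v
  have hpi : v * (star v * v) = v := by
    have h3 : star (v * (star v * v) - v) * (v * (star v * v) - v) = 0 := by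
      rw [star_sub, star_mul, star_mul, star_star, h1, sub_mul, mul_sub, mul_sub]
      simp only [mul_assoc]
      rw [← mul_assoc (star v) v, h1]
      simp [hpp.isIdempotentElem.eq]
    exact sub_eq_zero.1 ((CStarRing.star_mul_self_eq_zero_iff _).1 h3)
  have hfp : IsStarProjection f :=
    ⟨by rw [IsIdempotentElem]; simp only [f]; rw [mul_assoc, ← mul_assoc (star v), ← mul_assoc v,
      hpi], IsSelfAdjoint.mul_star_self v⟩
  have hpf : p * f = f := by simp only [f]; rw [← mul_assoc, h2]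
  obtain ⟨ξ, hs, htr, n, hn⟩ := h _ (sub_mem hp (mul_mem hv (star_mem hv))) (sub_ne_zero.2 (Ne.symm hne))
  have hadj : ∀ (a : H →L[ℂ] H) u, ‖a u‖ ^ 2 = RCLike.re ⟪u, (star a * a) u⟫_ℂ := fun a u => by
    rw [mul_apply_eq_comp, ContinuousLinearMap.star_eq_adjoint,
      ContinuousLinearMap.adjoint_inner_right, inner_self_eq_norm_sq]
  have hpy : ∀ u, ‖(p - f) u‖ ^ 2 = ‖v u‖ ^ 2 - ‖star v u‖ ^ 2 := fun u => by
    have e : star (p - f) * (p - f) = p - f := by
      have hfp' : f * p = f := by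
        simpa [hfp.isSelfAdjoint.star_eq, hpp.isSelfAdjoint.star_eq] using congrArg star hpf
      rw [star_sub, hpp.isSelfAdjoint.star_eq, hfp.isSelfAdjoint.star_eq, sub_mul, mul_sub,
        mul_sub, hpp.isIdempotentElem.eq, hpf, hfp', hfp.isIdempotentElem.eq]
      abel
    rw [hadj, hadj v, hadj (star v), star_star, e, h1, sub_apply, inner_sub_right, map_sub]
  have hsum : ∀ a : H →L[ℂ] H, Summable fun k => ‖a (ξ k)‖ ^ 2 := fun a =>
    Summable.of_nonneg_of_le (fun k => sq_nonneg _)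
      (fun k => (pow_le_pow_left₀ (norm_nonneg _) (a.le_opNorm _) 2).trans_eq (mul_pow _ _ 2))
      (hs.mul_left _)
  have h0 : ∑' k, ‖(p - f) (ξ k)‖ ^ 2 = 0 := by
    simp only [hpy]
    rw [(hsum v).tsum_sub (hsum _), htr v hv, sub_self]
  have h3 := (hsum (p - f)).le_tsum n fun j _ => sq_nonneg _
  rw [h0] at h3
  exact hn (norm_eq_zero.1 (pow_eq_zero_iff two_ne_zero |>.1 (le_antisymm h3 (sq_nonneg _))))

/-- A traced projection that meets every projection. -/
theorem exists_full (hsf : IsSemifiniteVN N) :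
    ∃ e ∈ N, IsStarProjection e ∧ Traced N e ∧
      ∀ r ∈ N, IsStarProjection r → r ≠ 0 → ∃ y ∈ N, r * y * e ≠ 0 := by
  classical
  set S : Set (Set (H →L[ℂ] H)) :=
    {B | (∀ f ∈ B, f ∈ N ∧ IsStarProjection f ∧ Traced N f ∧ f ≠ 0) ∧
      ∀ f ∈ B, ∀ f' ∈ B, f ≠ f' → ∀ y ∈ N, f * y * f' = 0} with hS
  obtain ⟨B, ⟨hB1, hB2⟩, hmax⟩ := zorn_subset S fun c hc hchain => by
    refine ⟨⋃₀ c, ⟨?_, ?_⟩, fun a ha => Set.subset_sUnion_of_mem ha⟩
    · rintro f ⟨a, ha, hf⟩
      exact (hc ha).1 f hf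
    · rintro f ⟨a, ha, hf⟩ f' ⟨b, hb, hf'⟩ hne
      rcases hchain.total ha hb with h | h
      · exact (hc hb).2 f (h hf) f' hf' hne
      · exact (hc ha).2 f hf f' (h hf') hne
  have hD : IsDiag (fun i : B => i.1) fun i => i.1 :=
    { proj := fun i => (hB1 _ i.2).2.1
      orth := fun i j hij => by
        simpa using hB2 _ i.2 _ j.2 (fun h => hij (Subtype.ext h)) 1 (one_mem N)
      left := fun i => (hB1 _ i.2).2.1.isIdempotentElem.eq
      right := fun i => (hB1 _ i.2).2.1.isIdempotentElem.eq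
      norm_le := fun i => IsStarProjection.norm_le _ (hB1 _ i.2).2.1 }
  have hei : ∀ (i : B) v, hD.sum ((i : H →L[ℂ] H) v) = (i : H →L[ℂ] H) v := fun i v => by
    rw [IsDiag.sum_apply, tsum_eq_single i fun j hj => ?_]
    · rw [← mul_apply_eq_comp, (hD.proj i).isIdempotentElem.eq]
    · rw [← mul_apply_eq_comp, hD.orth j i hj]
      rfl
  have hsum0 : ∀ (a : H →L[ℂ] H) v, (∀ i : B, a ((i : H →L[ℂ] H) v) = 0) → a (hD.sum v) = 0 :=
    fun a v h => by
      rw [IsDiag.sum_apply, a.map_tsum (hD.summable v)]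
      simp only [h, tsum_zero]
  have heq : IsStarProjection hD.sum := by
    refine ⟨ContinuousLinearMap.ext fun v => ?_, ?_⟩
    · rw [mul_apply_eq_comp, IsDiag.sum_apply hD v, hD.sum.map_tsum (hD.summable v)]
      simp only [hei]
    · refine ContinuousLinearMap.ext fun v => ext_inner_left ℂ fun w => ?_
      rw [IsDiag.star_sum, IsDiag.inner_sum_right, IsDiag.inner_sum_right]
      exact tsum_congr fun i => by rw [(hD.proj i).isSelfAdjoint.star_eq]
  refine ⟨hD.sum, hD.sum_mem fun i => (hB1 _ i.2).1, heq, ?_, fun r hr hrp hr0 => ?_⟩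
  · intro y hy hcy hy0
    have hyl : hD.sum * y = y := by
      rw [← hcy]; simp only [← mul_assoc, heq.isIdempotentElem.eq]
    have hyr : y * hD.sum = y := by
      rw [← hcy]; simp only [mul_assoc, heq.isIdempotentElem.eq]
    have hz : ∃ i : B, (i : H →L[ℂ] H) * y * (i : H →L[ℂ] H) ≠ 0 := by
      by_contra hcon
      push Not at hcon
      refine hy0 (ContinuousLinearMap.ext fun v => ?_)
      rw [zero_apply, ← hyr, mul_apply_eq_comp]
      refine hsum0 y v fun j => ?_
      rw [← hyl, mul_apply_eq_comp, IsDiag.sum_apply]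
      refine (tsum_congr fun i => ?_).trans tsum_zero
      show ((i : H →L[ℂ] H) * y * (j : H →L[ℂ] H)) v = 0
      rcases eq_or_ne i j with rfl | hij
      · rw [hcon i, zero_apply]
      · rw [hB2 _ i.2 _ j.2 (fun h => hij (Subtype.ext h)) y hy, zero_apply]
    obtain ⟨i, hi⟩ := hz
    obtain ⟨hiN, hip, hit, -⟩ := hB1 _ i.2
    have hsq : ∀ x : H →L[ℂ] H,
        (i : H →L[ℂ] H) * ((i : H →L[ℂ] H) * x * i) * i = (i : H →L[ℂ] H) * x * i := fun x => by
      simp only [← mul_assoc, hip.isIdempotentElem.eq]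
      simp only [mul_assoc, hip.isIdempotentElem.eq]
    obtain ⟨ξ, hs, hξ, htr, n, hn⟩ := hit _ (mul_mem (mul_mem hiN hy) hiN) (hsq y) hi
    have hdiag : ∀ x ∈ N, hD.sum * x * hD.sum = x → ∀ k,
        x (ξ k) = ((i : H →L[ℂ] H) * x * i) (ξ k) := by
      intro x hx hcx k
      have h1 : hD.sum * x = x := by
        rw [← hcx]; simp only [← mul_assoc, heq.isIdempotentElem.eq]
      conv_lhs => rw [← hξ k, ← h1, mul_apply_eq_comp]
      rw [IsDiag.sum_apply, tsum_eq_single i fun j hj => ?_]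
      · rfl
      · rw [← mul_apply_eq_comp, ← mul_apply_eq_comp,
          hB2 _ j.2 _ i.2 (fun h => hj (Subtype.ext h)) x hx, zero_apply]
    refine ⟨ξ, hs, fun k => by rw [← hξ k]; exact hei i _, fun x hx hcx => ?_, n, ?_⟩
    · have hsx : hD.sum * star x * hD.sum = star x := by
        conv_rhs => rw [← hcx]
        rw [star_mul, star_mul, heq.isSelfAdjoint.star_eq, mul_assoc]
      simp only [hdiag x hx hcx, hdiag _ (star_mem hx) hsx]
      rw [← htr _ (mul_mem (mul_mem hiN hx) hiN) (hsq x)]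
      simp only [star_mul, hip.isSelfAdjoint.star_eq, mul_assoc]
    · rw [hdiag y hy hcy]; exact hn
  · by_contra hcon
    push Not at hcon
    obtain ⟨f, hf, hf0, hrf⟩ := hsf r hr hrp hr0
    have hfi : ∀ (i : B), ∀ y ∈ N, f * y * (i : H →L[ℂ] H) = 0 := fun i y hy => by
      have hfr : f * r = f := by
        simpa [hf.1.isSelfAdjoint.star_eq, hrp.isSelfAdjoint.star_eq] using congrArg star hrf
      refine ContinuousLinearMap.ext fun v => ?_
      rw [mul_apply_eq_comp, ← hei i v, ← hfr, ← mul_apply_eq_comp, mul_assoc, mul_assoc,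
        ← mul_assoc r, hcon y hy, mul_zero, zero_apply, zero_apply]
    have hfB : f ∉ B := fun h => hf0 (by
      have := hfi ⟨f, h⟩ 1 (one_mem N)
      simpa [hf.1.isIdempotentElem.eq] using this)
    refine hfB (hmax ⟨?_, ?_⟩ (Set.subset_insert f B) (Set.mem_insert f B))
    · rintro g (rfl | hg)
      · exact ⟨hf.2.1, hf.1, traced_of_finite hf, hf0⟩
      · exact hB1 g hg
    · rintro g (rfl | hg) g' (rfl | hg') hne y hy
      · exact absurd rfl hne
      · exact hfi ⟨g', hg'⟩ y hy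
      · have := congrArg star (hfi ⟨g, hg⟩ _ (star_mem hy))
        simpa [star_mul, hf.1.isSelfAdjoint.star_eq, (hB1 g hg).2.1.isSelfAdjoint.star_eq,
          mul_assoc] using this
      · exact hB2 g hg g' hg' hne y hy

/-- Finitely many orthogonal copies of parts of a traced projection are traced. -/
theorem traced_sum {e : H →L[ℂ] H} (he : IsStarProjection e) (_heN : e ∈ N) (ht : Traced N e)
    {m : ℕ} (w : Fin m → H →L[ℂ] H) (hw : ∀ i, w i ∈ N) (hwe : ∀ i, w i * e = w i)
    (hpi : ∀ i, w i * (star (w i) * w i) = w i) (ho : ∀ i j, i ≠ j → star (w i) * w j = 0) :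
    Traced N (∑ i, w i * star (w i)) := by
  set p := ∑ i, w i * star (w i) with hp
  have hpw : ∀ i, p * w i = w i := fun i => by
    rw [hp, Finset.sum_mul, Finset.sum_eq_single i (fun j _ hj => by
      rw [mul_assoc, ho j i hj, mul_zero]) (fun h => absurd (Finset.mem_univ i) h), mul_assoc,
      hpi]
  have hsw : ∀ i, e * star (w i) = star (w i) := fun i => by
    simpa [star_mul, he.isSelfAdjoint.star_eq] using congrArg star (hwe i)
  have hcor : ∀ i j, ∀ x : H →L[ℂ] H, e * (star (w i) * x * w j) * e = star (w i) * x * w j :=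
    fun i j x => by
      simp only [← mul_assoc, hsw]
      simp only [mul_assoc, hwe]
  have hsq : ∀ x : H →L[ℂ] H, p * x = x → ∀ u : H,
      ‖x u‖ ^ 2 = ∑ i, ‖(star (w i) * x) u‖ ^ 2 := by
    intro x hx u
    have h0 : ∀ i a, ‖w i (star (w i) a)‖ = ‖star (w i) a‖ := fun i a => by
      have h1 : ‖w i (star (w i) a)‖ ^ 2 = ‖star (w i) a‖ ^ 2 := by
        rw [← inner_self_eq_norm_sq (𝕜 := ℂ), ← inner_self_eq_norm_sq (𝕜 := ℂ),
          ← ContinuousLinearMap.adjoint_inner_right (w i), ← ContinuousLinearMap.star_eq_adjoint]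
        congr 2
        have h2 := congrArg (fun T : H →L[ℂ] H => star T a) (hpi i)
        simpa [star_mul] using h2
      exact (pow_left_inj₀ (norm_nonneg _) (norm_nonneg _) two_ne_zero).1 h1
    conv_lhs => rw [← hx]
    rw [hp, Finset.sum_mul, sum_apply, norm_sq_sum_of_orth _ _ fun i _ j _ hij => by
      show ⟪w i (star (w i) (x u)), w j (star (w j) (x u))⟫_ℂ = 0
      rw [← ContinuousLinearMap.adjoint_inner_right (w i), ← ContinuousLinearMap.star_eq_adjoint,
        ← mul_apply_eq_comp (star (w i)) (w j), ho i j hij, zero_apply, inner_zero_right]]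
    exact Finset.sum_congr rfl fun i _ => by
      rw [mul_apply_eq_comp, mul_apply_eq_comp, h0, mul_apply_eq_comp]
  intro y hy hcy hy0
  have hpp : p * p = p := by
    conv_lhs => arg 2; rw [hp]
    rw [Finset.mul_sum]
    simp only [← mul_assoc, hpw]
    rfl
  have hpl : ∀ x, p * x * p = x → p * x = x ∧ x * p = x := fun x hx => by
    constructor
    · conv_rhs => rw [← hx]
      conv_lhs => rw [← hx]
      simp only [← mul_assoc, hpp]
    · conv_rhs => rw [← hx]
      conv_lhs => rw [← hx]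
      simp only [mul_assoc, hpp]
  have hz : ∃ i j, star (w i) * y * w j ≠ 0 := by
    by_contra hcon
    push Not at hcon
    refine hy0 ?_
    rw [← hcy, hp, Finset.sum_mul, Finset.sum_mul]
    refine Finset.sum_eq_zero fun i _ => ?_
    rw [Finset.mul_sum]
    refine Finset.sum_eq_zero fun j _ => ?_
    rw [← mul_assoc, mul_assoc (w i) (star (w i)), mul_assoc (w i), hcon, mul_zero, zero_mul]
  obtain ⟨i, j, hij⟩ := hz
  obtain ⟨ξ, hs, hξ, htr, n, hn⟩ :=
    ht _ (mul_mem (mul_mem (star_mem (hw i)) hy) (hw j)) (hcor i j y) hij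
  have hm : 0 < m := i.pos
  have : NeZero m := ⟨hm.ne'⟩
  let enc : ℕ ≃ ℕ × Fin m := Nat.divModEquiv m
  let ζ : ℕ → H := fun k => w (enc k).2 (ξ (enc k).1)
  have hsum : ∀ (x : H →L[ℂ] H), Summable (fun k => ‖x (ζ k)‖ ^ 2) ∧
      ∑' k, ‖x (ζ k)‖ ^ 2 = ∑ l, ∑' a, ‖(x * w l) (ξ a)‖ ^ 2 := by
    intro x
    have h1 : ∀ l, Summable fun a => ‖(x * w l) (ξ a)‖ ^ 2 := fun l =>
      Summable.of_nonneg_of_le (fun a => sq_nonneg _)
        (fun a => (pow_le_pow_left₀ (norm_nonneg _) ((x * w l).le_opNorm _) 2).trans_eq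
          (mul_pow _ _ 2)) (hs.mul_left _)
    have h2 : Summable fun q : ℕ × Fin m => ‖(x * w q.2) (ξ q.1)‖ ^ 2 := by
      rw [summable_prod_of_nonneg fun q => sq_nonneg _]
      refine ⟨fun a => Summable.of_finite, ?_⟩
      simp only [tsum_fintype]
      exact summable_sum fun l _ => h1 l
    refine ⟨(enc.summable_iff (f := fun q : ℕ × Fin m => ‖(x * w q.2) (ξ q.1)‖ ^ 2)).2 h2, ?_⟩
    refine (enc.tsum_eq fun q : ℕ × Fin m => ‖(x * w q.2) (ξ q.1)‖ ^ 2).trans ?_
    rw [h2.tsum_prod, ← Summable.tsum_finsetSum fun l _ => h1 l]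
    exact tsum_congr fun a => tsum_fintype _
  refine ⟨ζ, by simpa using (hsum 1).1, fun k => by
    show p (w _ _) = _
    rw [← mul_apply_eq_comp, hpw], fun x hx hcx => ?_, enc.symm (n, j), fun h0 => hn ?_⟩
  · have hxl := (hpl x hcx).1
    have hsxl : p * star x = star x := by
      have := congrArg star (hpl x hcx).2
      rwa [star_mul, show star p = p by simp [hp, star_sum, star_mul]] at this
    rw [(hsum _).2, (hsum _).2]
    have key : ∀ x : H →L[ℂ] H, p * x = x → ∀ l,
        ∑' a, ‖(x * w l) (ξ a)‖ ^ 2 = ∑ i, ∑' a, ‖(star (w i) * x * w l) (ξ a)‖ ^ 2 := by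
      intro x hx l
      have h1 : ∀ a, ‖(x * w l) (ξ a)‖ ^ 2 = ∑ i, ‖(star (w i) * x * w l) (ξ a)‖ ^ 2 := fun a => by
        rw [mul_apply_eq_comp, hsq x hx]
        rfl
      simp only [h1]
      exact Summable.tsum_finsetSum fun i _ =>
        Summable.of_nonneg_of_le (fun a => sq_nonneg _)
          (fun a => (pow_le_pow_left₀ (norm_nonneg _)
            ((star (w i) * x * w l).le_opNorm _) 2).trans_eq (mul_pow _ _ 2)) (hs.mul_left _)
    simp only [key x hxl, key _ hsxl]
    rw [Finset.sum_comm]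
    refine Finset.sum_congr rfl fun l _ => Finset.sum_congr rfl fun i _ => ?_
    rw [← htr _ (mul_mem (mul_mem (star_mem (hw i)) hx) (hw l)) (hcor i l x)]
    simp only [star_mul, star_star, mul_assoc]
  · show (star (w i) * y * w j) (ξ n) = 0
    have h3 : y (w j (ξ n)) = 0 := by simpa [ζ] using h0
    rw [mul_apply_eq_comp, mul_apply_eq_comp, h3, map_zero]

/-- Semifinite algebras have finite corners tending to one. -/
theorem hasFiniteCorners_of_semifinite (hsf : IsSemifiniteVN N) : HasFiniteCorners N := by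
  classical
  obtain ⟨e, heN, he, ht, hfull⟩ := exists_full hsf
  set S : Set (Set (H →L[ℂ] H)) :=
    {B | (∀ w ∈ B, w ∈ N ∧ w * (star w * w) = w ∧ w * e = w) ∧
      ∀ w ∈ B, ∀ w' ∈ B, w ≠ w' → star w * w' = 0} with hS
  obtain ⟨B, ⟨hB1, hB2⟩, hmax⟩ := zorn_subset S fun c hc hchain => by
    refine ⟨⋃₀ c, ⟨?_, ?_⟩, fun a ha => Set.subset_sUnion_of_mem ha⟩
    · rintro f ⟨a, ha, hf⟩
      exact (hc ha).1 f hf
    · rintro f ⟨a, ha, hf⟩ f' ⟨b, hb, hf'⟩ hne
      rcases hchain.total ha hb with h | h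
      · exact (hc hb).2 f (h hf) f' hf' hne
      · exact (hc ha).2 f hf f' (h hf') hne
  set K : Submodule ℂ H := (⨆ i : B, LinearMap.range
    (((i : H →L[ℂ] H) * star (i : H →L[ℂ] H) : H →L[ℂ] H) : H →ₗ[ℂ] H)).topologicalClosure with hK
  have : CompleteSpace K := (Submodule.isClosed_topologicalClosure _).completeSpace_coe
  set P := K.starProjection with hP
  have hPp : IsStarProjection P := isStarProjection_starProjection
  have inv : ∀ z ∈ N.commutant, ∀ v ∈ K, z v ∈ K := by
    intro z hz v hv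
    have hcl : IsClosed ((K.comap (z : H →ₗ[ℂ] H) : Submodule ℂ H) : Set H) :=
      (Submodule.isClosed_topologicalClosure _).preimage z.continuous
    refine Submodule.topologicalClosure_minimal _ (iSup_le fun i => ?_) hcl hv
    rintro _ ⟨u, rfl⟩
    refine Submodule.le_topologicalClosure _ (Submodule.mem_iSup_of_mem i ⟨z u, ?_⟩)
    exact congrArg (fun T : H →L[ℂ] H => T u)
      (VonNeumannAlgebra.mem_commutant_iff.1 hz _
        (mul_mem (hB1 _ i.2).1 (star_mem (hB1 _ i.2).1)))
  have hPM : P ∈ N := mem_of_commute_commutant N fun z hz => by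
    have k : ∀ a ∈ N.commutant, P * a * P = a * P := fun a ha => ContinuousLinearMap.ext fun v =>
      Submodule.starProjection_eq_self_iff.2 (inv a ha _ (Submodule.starProjection_apply_mem K v))
    have e2 := congrArg star (k _ (star_mem hz))
    simp only [star_mul, star_star, hPp.isSelfAdjoint.star_eq, ← mul_assoc] at e2
    exact (k z hz).symm.trans e2
  have hK1 : ∀ v, v ∈ K := by
    by_contra hcon
    push Not at hcon
    obtain ⟨v, hv⟩ := hcon
    have hr0 : (1 : H →L[ℂ] H) - P ≠ 0 := fun h0 => hv (by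
      have h1 : P v = v := (congrArg (fun T : H →L[ℂ] H => T v) (sub_eq_zero.1 h0)).symm
      rw [← h1]
      exact Submodule.starProjection_apply_mem _ _)
    obtain ⟨y, hy, hne⟩ := hfull _ (sub_mem (one_mem N) hPM) hPp.one_sub hr0
    obtain ⟨w, hw, hw0, hwpi, hrw, hwe⟩ := Vale.Agent.P082.Every.C1.exists_pi_between
      (a := 1 - P) (b := e) (mul_mem (mul_mem (sub_mem (one_mem N) hPM) hy) heN)
      (by simp only [← mul_assoc, hPp.one_sub.isIdempotentElem.eq])
      (by simp only [mul_assoc, he.isIdempotentElem.eq]) hne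
    have hPw : P * w = 0 := by
      rw [sub_mul, one_mul, sub_eq_self] at hrw
      exact hrw
    have hPB : ∀ i ∈ B, P * i = i := fun i hi => ContinuousLinearMap.ext fun u => by
      rw [mul_apply_eq_comp]
      refine Submodule.starProjection_eq_self_iff.2 (Submodule.le_topologicalClosure _
        (Submodule.mem_iSup_of_mem ⟨i, hi⟩ ⟨i u, ?_⟩))
      exact congrArg (fun T : H →L[ℂ] H => T u) ((mul_assoc i (star i) i).trans (hB1 i hi).2.1)
    have hiw : ∀ i ∈ B, star i * w = 0 := fun i hi => by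
      have h1 := congrArg star (hPB i hi)
      rw [star_mul, hPp.isSelfAdjoint.star_eq] at h1
      rw [← h1, mul_assoc, hPw, mul_zero]
    have hwB : w ∉ B := fun h => hw0 (by
      rw [← hwpi, hiw w h, mul_zero])
    refine hwB (hmax ⟨?_, ?_⟩ (Set.subset_insert w B) (Set.mem_insert w B))
    · rintro i (rfl | hi)
      · exact ⟨hw, hwpi, hwe⟩
      · exact hB1 i hi
    · rintro i (rfl | hi) j (rfl | hj) hne'
      · exact absurd rfl hne'
      · simpa using congrArg star (hiw j hj)
      · exact hiw i hi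
      · exact hB2 i hi j hj hne'
  intro F δ hδ
  have happ : ∀ v : H, ∃ a ∈ ⨆ i : B, LinearMap.range
      (((i : H →L[ℂ] H) * star (i : H →L[ℂ] H) : H →L[ℂ] H) : H →ₗ[ℂ] H), ‖v - a‖ ≤ δ := by
    intro v
    obtain ⟨a, ha, hd⟩ := Metric.mem_closure_iff.1 (hK1 v : v ∈ closure _) δ hδ
    exact ⟨a, ha, by rw [← dist_eq_norm]; exact hd.le⟩
  choose a ha had using happ
  choose s hs using fun v => Submodule.exists_finset_of_mem_iSup _ (ha v)
  set t : Finset B := F.biUnion s
  let w : Fin t.card → H →L[ℂ] H := fun i => ((t.equivFin.symm i).1 : H →L[ℂ] H)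
  have hw : ∀ i, w i ∈ N ∧ w i * (star (w i) * w i) = w i ∧ w i * e = w i := fun i =>
    hB1 _ (t.equivFin.symm i).1.2
  have ho : ∀ i j, i ≠ j → star (w i) * w j = 0 := fun i j hij =>
    hB2 _ (t.equivFin.symm i).1.2 _ (t.equivFin.symm j).1.2
      fun h => hij (t.equivFin.symm.injective (Subtype.ext (Subtype.ext h)))
  set p := ∑ i, w i * star (w i) with hp
  have hpw : ∀ i, p * w i = w i := fun i => by
    rw [hp, Finset.sum_mul, Finset.sum_eq_single i (fun j _ hj => by
      rw [mul_assoc, ho j i hj, mul_zero]) (fun h => absurd (Finset.mem_univ i) h), mul_assoc,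
      (hw i).2.1]
  have hpp : IsStarProjection p := by
    refine ⟨?_, by simp [IsSelfAdjoint, hp, star_sum, star_mul]⟩
    show p * p = p
    conv_lhs => arg 2; rw [hp]
    rw [Finset.mul_sum]
    simp only [← mul_assoc, hpw]
    rfl
  have hpN : p ∈ N := sum_mem fun i _ => mul_mem (hw i).1 (star_mem (hw i).1)
  refine ⟨p, hpN, hpp, hasNormalTraces_of_traced hpp hpN (traced_sum he heN ht w (fun i => (hw i).1)
    (fun i => (hw i).2.2) (fun i => (hw i).2.1) ho), fun v hv => ?_⟩
  have hpa : p (a v) = a v := by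
    have hle : (⨆ i ∈ s v, LinearMap.range (((i : H →L[ℂ] H) * star (i : H →L[ℂ] H) : H →L[ℂ] H) :
        H →ₗ[ℂ] H)) ≤ LinearMap.ker (((1 : H →L[ℂ] H) - p) : H →ₗ[ℂ] H) := by
      refine iSup₂_le fun i hi => ?_
      rintro _ ⟨u, rfl⟩
      have hmem : i ∈ t := Finset.mem_biUnion.2 ⟨v, hv, hi⟩
      have h1 := hpw (t.equivFin ⟨i, hmem⟩)
      simp only [w, Equiv.symm_apply_apply] at h1
      refine mem_cSpace.2 ?_
      show p (((i : H →L[ℂ] H) * star (i : H →L[ℂ] H)) u) = _
      rw [← mul_apply_eq_comp, ← mul_assoc, h1]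
      rfl
    exact mem_cSpace.1 (hle (hs v))
  calc ‖p v - v‖ = ‖((1 : H →L[ℂ] H) - p) (v - a v)‖ := by
        rw [map_sub, sub_apply, sub_apply, one_apply_eq_self, one_apply_eq_self, hpa, sub_self,
          sub_zero, norm_sub_rev]
    _ ≤ 1 * δ := (((1 : H →L[ℂ] H) - p).le_opNorm _).trans
        (mul_le_mul hpp.one_sub.norm_le (had v) (norm_nonneg _) zero_le_one)
    _ = δ := one_mul δ

/-- The conjecture for semifinite algebras. -/
theorem stmtSemifinite_of (hA : Iface.StmtA.{u}) (hB : Iface.StmtB.{u}) :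
    ∀ ε : ℝ, 0 < ε → ∃ δ : ℝ, 0 < δ ∧
      ∀ (H : Type u) [NormedAddCommGroup H] [InnerProductSpace ℂ H] [CompleteSpace H]
        (M N : VonNeumannAlgebra H), IsSemifiniteVN N → Near M N δ →
        ∃ u ∈ unitary (H →L[ℂ] H), ‖u - 1‖ < ε ∧ Conj u M N := by
  obtain ⟨C, a, hC, ha, hA⟩ := nearLinear_of_corners hA
  obtain ⟨K, b, hK, hb, hB⟩ := hB
  intro ε hε
  refine ⟨min a (min (b / (C + 1)) (ε / ((K + 1) * (C + 1)))), by positivity,
    fun H _ _ _ M N hN hn => ?_⟩
  set δ := min a (min (b / (C + 1)) (ε / ((K + 1) * (C + 1)))) with hδ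
  have hδ0 : 0 < δ := by positivity
  have h1 : δ * (C + 1) ≤ b := by
    rw [← le_div_iff₀ (by linarith)]
    exact (min_le_right _ _).trans (min_le_left _ _)
  have h2 : (K + 1) * (δ * (C + 1)) ≤ ε := by
    have h := (min_le_right a _).trans (min_le_right (b / (C + 1)) (ε / ((K + 1) * (C + 1))))
    rw [← hδ, le_div_iff₀ (by positivity)] at h
    linarith
  obtain ⟨L, hL⟩ := hA H M N δ (hasFiniteCorners_of_semifinite hN) hδ0.le (min_le_left _ _) hn
  have hmono : ∀ {A B : VonNeumannAlgebra H}, BallNear A B δ → BallNear A B (δ * (C + 1)) :=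
    fun h x hx hx1 => by
      obtain ⟨y, hy, hy1, hxy⟩ := h x hx hx1
      exact ⟨y, hy, hy1, hxy.trans (le_mul_of_one_le_right hδ0.le (by linarith))⟩
  obtain ⟨u, hu, hu1, hc⟩ := hB H M N (δ * (C + 1)) (by positivity) h1
    ⟨hmono hn.1, hmono hn.2⟩
    ⟨L, fun x => (hL x).trans (mul_le_mul_of_nonneg_right (by nlinarith) (norm_nonneg _))⟩
  exact ⟨u, hu, lt_of_lt_of_le (hu1.trans_lt (by nlinarith)) h2, hc⟩

end Vale.Agent.P096.Reduce
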