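import Vale.Agent.P096.Linear.Statement

/-!
# P096: vocabulary for the semifinite theorem
-/

namespace Vale.Agent.P096.Reduce

universe u

variable {H : Type u} [NormedAddCommGroup H] [InnerProductSpace ℂ H] [CompleteSpace H]

/-- `v* v = e`. -/
def SourceIs (v e : H →L[ℂ] H) : Prop := star v * v = e

/-- `v v* = e`. -/
def RangeIs (v e : H →L[ℂ] H) : Prop := v * star v = e

/-- `a b = b`. -/
def Fixes (a b : H →L[ℂ] H) : Prop := a * b = b

/-- `e` is not equivalent in `N` to a proper part of itself. -/
def NoProperPart (N : VonNeumannAlgebra H) (e : H →L[ℂ] H) : Prop :=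
  ∀ v ∈ N, SourceIs v e → Fixes e v → RangeIs v e

/-- `a` is a projection other than zero. -/
def NonzeroProj (a : H →L[ℂ] H) : Prop := IsStarProjection a ∧ a ≠ 0

/-- Every nonzero projection of `N` dominates a nonzero finite one. -/
def SemifiniteAlg (N : VonNeumannAlgebra H) : Prop :=
  ∀ p ∈ N, NonzeroProj p → ∃ e ∈ N, NonzeroProj e ∧ Fixes p e ∧ NoProperPart N e

end Vale.Agent.P096.Reduce
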