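import Vale.Agent.P096.Reduce.Amp
import Vale.Agent.P096.Reduce.Semifinite
import Vale.Agent.P096.Linear.Main
import Vale.Agent.P096.Reduce.Statement

/-!
# P096: the semifinite theorem in the words of the problem
-/

namespace Vale.Agent.P096.Reduce

universe u

/-- If one of two close algebras is semifinite, a unitary near one carries one onto the other. -/
theorem semifinite_of_core (hA : Iface.StmtACore.{u}) :
    ∀ ε : ℝ, 0 < ε → ∃ δ : ℝ, 0 < δ ∧
      ∀ (H : Type u) [NormedAddCommGroup H] [InnerProductSpace ℂ H] [CompleteSpace H]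
        (M N : VonNeumannAlgebra H), SemifiniteAlg M ∨ SemifiniteAlg N → Near M N δ →
        Linear.ConjWithin ε M N := by
  intro ε hε
  obtain ⟨δ, hδ, h⟩ := stmtSemifinite_of (stmtA_of hA) Linear.stmtB ε hε
  refine ⟨δ, hδ, fun H _ _ _ M N hor hn => ?_⟩
  have hsf : ∀ A : VonNeumannAlgebra H, SemifiniteAlg A → IsSemifiniteVN A :=
    fun A hA p hp hpp hp0 => by
      obtain ⟨e, he, ⟨hep, he0⟩, hpe, hfin⟩ := hA p hp ⟨hpp, hp0⟩
      exact ⟨e, ⟨hep, he, hfin⟩, he0, hpe⟩
  rcases hor with hM | hN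
  · obtain ⟨u, hu, hu1, hc⟩ := h H N M (hsf M hM) ⟨hn.2, hn.1⟩
    refine ⟨star u, Unitary.star_mem hu, ?_, fun x hx => ?_, fun y hy => ?_⟩
    · show ‖star u - 1‖ < ε
      rwa [← star_one, ← star_sub, norm_star]
    · show star u * x * star (star u) ∈ N
      rw [star_star]
      exact hc.2 x hx
    · show star (star u) * y * star (star (star u)) ∈ M
      rw [star_star]
      exact hc.1 y hy
  · obtain ⟨u, hu, hu1, hc⟩ := h H M N (hsf N hN) hn
    refine ⟨u, hu, hu1, hc.1, fun y hy => ?_⟩
    show star u * y * star (star u) ∈ M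
    rw [star_star]
    exact hc.2 y hy

end Vale.Agent.P096.Reduce
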